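import Vale.Agent.P190.Hat.Ring

/-!
P190, Module 7 (HAT): the completion has dimension three.
-/

open IsLocalRing

namespace Vale.Agent.P190

lemma three_le_ringKrullDim_powerSeries (k : Type) [Field k] :
    3 ≤ ringKrullDim (MvPowerSeries (Fin 3) k) := by
  have h0 : 0 ≤ ringKrullDim (MvPowerSeries (Fin 0) k) := ringKrullDim_nonneg_of_nontrivial
  have step : ∀ n : ℕ, ringKrullDim (MvPowerSeries (Fin n) k) + 1
      ≤ ringKrullDim (MvPowerSeries (Fin (n + 1)) k) := fun n => by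
    rw [ringKrullDim_eq_of_ringEquiv (MvPowerSeries.finSuccEquiv k n).toRingEquiv]
    exact ringKrullDim_succ_le_ringKrullDim_powerseries
  calc (3 : WithBot ℕ∞) = 0 + 1 + 1 + 1 := by norm_num
    _ ≤ ringKrullDim (MvPowerSeries (Fin 0) k) + 1 + 1 + 1 := by gcongr
    _ ≤ ringKrullDim (MvPowerSeries (Fin 1) k) + 1 + 1 := by gcongr; exact step 0
    _ ≤ ringKrullDim (MvPowerSeries (Fin 2) k) + 1 := by gcongr; exact step 1
    _ ≤ _ := step 2

namespace Ring3

variable {k K : Type} [Field k] [Field K] [Algebra k K] (C : Ring3 k K)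

lemma ord_one_pow_le_par : C.ord 1 ^ (C.g + 1) ≤ C.par :=
  (C.ord_one_pow_le (C.g + 1)).trans <| (C.ord_add_le 1).trans (by rw [pow_one])

/-- Only the maximal ideal contains the parameters. -/
lemma prime_eq_max [IsLocalRing C.Hat] {P : Ideal C.Hat} (hP : P.IsPrime) (h : C.par ≤ P) :
    P = maximalIdeal C.Hat := by
  refine le_antisymm (le_maximalIdeal hP.ne_top) ?_
  rw [C.maximalIdeal_eq]
  exact hP.le_of_pow_le (C.ord_one_pow_le_par.trans h)

lemma isMaximal_of_par_le [IsLocalRing C.Hat] (P : Ideal C.Hat) (hP : P.IsPrime) (h : C.par ≤ P) :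
    P.IsMaximal := by
  rw [C.prime_eq_max hP h]; exact maximalIdeal.isMaximal _

lemma ringKrullDim_quotient_par [IsLocalRing C.Hat] : ringKrullDim (C.Hat ⧸ C.par) ≤ 0 := by
  rw [ringKrullDim_quotient]
  refine Order.krullDim_nonpos_iff_forall_isMin.2 fun x y hy => ?_
  have hx := C.prime_eq_max x.1.2 x.2
  have hy' := C.prime_eq_max y.1.2 y.2
  exact le_of_eq (Subtype.ext (PrimeSpectrum.ext (hx.trans hy'.symm)))

lemma ringKrullDim_hat_le [IsLocalRing C.Hat] : ringKrullDim C.Hat ≤ 3 := by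
  classical
  haveI := C.isNoetherianRing_hat
  let S : Finset C.Hat := C.params.toFinset
  have hS : (S : Set C.Hat) ⊆ Ring.jacobson C.Hat := by
    intro x hx
    rw [IsLocalRing.ringJacobson_eq_maximalIdeal, C.maximalIdeal_eq]
    exact C.par_le_ord_one (Ideal.subset_span (by simpa [S] using hx))
  have h := ringKrullDim_le_ringKrullDim_quotient_add_card S hS
  have hspan : Ideal.span (S : Set C.Hat) = C.par := by
    simp [S, par, Ideal.ofList]
  rw [hspan] at h
  refine h.trans ?_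
  have hcard : S.card ≤ 3 := (List.toFinset_card_le _).trans (by simp [params])
  calc ringKrullDim (C.Hat ⧸ C.par) + (S.card : WithBot ℕ∞) ≤ 0 + (3 : ℕ) := by
        gcongr
        exact C.ringKrullDim_quotient_par
    _ = 3 := by simp

lemma three_le_ringKrullDim_hat : 3 ≤ ringKrullDim C.Hat := by
  haveI := C.finite_hat
  haveI : Algebra.IsIntegral (MvPowerSeries (Fin 3) k) C.Hat := Algebra.IsIntegral.of_finite _ _
  have h3 := three_le_ringKrullDim_powerSeries k
  have hA : ((3 : ℕ) : WithBot ℕ∞) ≤ Order.krullDim (PrimeSpectrum (MvPowerSeries (Fin 3) k)) := h3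
  obtain ⟨l, hl⟩ := Order.le_krullDim_iff.1 hA
  obtain ⟨p0, p1, p2, p3, h01, h12, h23⟩ : ∃ p0 p1 p2 p3 : PrimeSpectrum (MvPowerSeries (Fin 3) k),
      p0 < p1 ∧ p1 < p2 ∧ p2 < p3 :=
    ⟨l ⟨0, by omega⟩, l ⟨1, by omega⟩, l ⟨2, by omega⟩, l ⟨3, by omega⟩,
      l.strictMono (by simp [Fin.lt_def]), l.strictMono (by simp [Fin.lt_def]),
      l.strictMono (by simp [Fin.lt_def])⟩
  have lift : ∀ (I : Ideal C.Hat) (p q : PrimeSpectrum (MvPowerSeries (Fin 3) k)),
      I.comap (algebraMap (MvPowerSeries (Fin 3) k) C.Hat) ≤ p.asIdeal → p ≤ q →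
      ∃ Q : PrimeSpectrum C.Hat, I ≤ Q.asIdeal ∧
        Q.asIdeal.comap (algebraMap (MvPowerSeries (Fin 3) k) C.Hat) = q.asIdeal := by
    intro I p q hI hpq
    obtain ⟨Q, hIQ, hQ, hQq⟩ := Ideal.exists_ideal_over_prime_of_isIntegral q.asIdeal I (hI.trans hpq)
    exact ⟨⟨Q, hQ⟩, hIQ, hQq⟩
  have hbot : (⊥ : Ideal C.Hat).comap (algebraMap (MvPowerSeries (Fin 3) k) C.Hat) ≤ p0.asIdeal := by
    intro a ha
    rw [Ideal.mem_comap, Ideal.mem_bot, C.algebraMap_hat] at ha
    rw [show a = 0 from C.φ_injective (ha.trans (map_zero _).symm)]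
    exact zero_mem _
  obtain ⟨Q0, -, e0⟩ := lift ⊥ p0 p0 hbot le_rfl
  obtain ⟨Q1, i1, e1⟩ := lift Q0.asIdeal p0 p1 e0.le h01.le
  obtain ⟨Q2, i2, e2⟩ := lift Q1.asIdeal p1 p2 e1.le h12.le
  obtain ⟨Q3, i3, e3⟩ := lift Q2.asIdeal p2 p3 e2.le h23.le
  have strict : ∀ {P Q : PrimeSpectrum C.Hat} {p q : PrimeSpectrum (MvPowerSeries (Fin 3) k)},
      P.asIdeal ≤ Q.asIdeal → P.asIdeal.comap (algebraMap _ C.Hat) = p.asIdeal →
      Q.asIdeal.comap (algebraMap _ C.Hat) = q.asIdeal → p < q → P < Q := by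
    intro P Q p q hle hp hq hpq
    refine lt_of_le_of_ne hle ?_
    rintro rfl
    exact hpq.ne (PrimeSpectrum.ext (hp.symm.trans hq))
  let s : LTSeries (PrimeSpectrum C.Hat) := LTSeries.mk 3 ![Q0, Q1, Q2, Q3] (by
    refine Fin.strictMono_iff_lt_succ.2 fun i => ?_
    fin_cases i
    · exact strict i1 e0 e1 h01
    · exact strict i2 e1 e2 h12
    · exact strict i3 e2 e3 h23)
  exact Order.LTSeries.length_le_krullDim s

theorem ringKrullDim_hat : ringKrullDim C.Hat = 3 :=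
  haveI := C.isLocalRing_hat
  le_antisymm C.ringKrullDim_hat_le C.three_le_ringKrullDim_hat

end Ring3

end Vale.Agent.P190
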