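import Mathlib

/-!
P190, Module 7 (HAT): a finite module over `k⟦X, Y, Z⟧` on which `X, Y, Z` is regular is free.
-/

open IsLocalRing RingTheory.Sequence Pointwise

namespace Vale.Agent.P190

variable {k : Type} [Field k]

lemma mem_maximalIdeal_series {f : (MvPowerSeries (Fin 3) k)} :
    f ∈ maximalIdeal (MvPowerSeries (Fin 3) k) ↔ MvPowerSeries.constantCoeff f = 0 := by
  rw [mem_maximalIdeal, mem_nonunits_iff, MvPowerSeries.isUnit_iff_constantCoeff, isUnit_iff_ne_zero,
    not_not]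

lemma X_mem_maximalIdeal (i : Fin 3) : (MvPowerSeries.X i : (MvPowerSeries (Fin 3) k)) ∈ maximalIdeal (MvPowerSeries (Fin 3) k) :=
  mem_maximalIdeal_series.2 (MvPowerSeries.constantCoeff_X i)

lemma maximalIdeal_series_le :
    maximalIdeal (MvPowerSeries (Fin 3) k) ≤ Ideal.span {MvPowerSeries.X 0} ⊔ Ideal.span {MvPowerSeries.X 1}
      ⊔ Ideal.span {MvPowerSeries.X 2} := by
  intro f hf
  rw [mem_maximalIdeal_series] at hf
  let f1 : (MvPowerSeries (Fin 3) k) := fun m => if m 0 = 0 then MvPowerSeries.coeff m f else 0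
  let f2 : (MvPowerSeries (Fin 3) k) := fun m => if m 0 = 0 ∧ m 1 = 0 then MvPowerSeries.coeff m f else 0
  have c1 : ∀ m, MvPowerSeries.coeff m f1 = if m 0 = 0 then MvPowerSeries.coeff m f else 0 :=
    fun m => rfl
  have c2 : ∀ m, MvPowerSeries.coeff m f2
      = if m 0 = 0 ∧ m 1 = 0 then MvPowerSeries.coeff m f else 0 := fun m => rfl
  have e : f = (f - f1) + (f1 - f2) + f2 := by ring
  rw [e]
  refine Submodule.add_mem_sup (Submodule.add_mem_sup ?_ ?_) ?_ <;>
    rw [Ideal.mem_span_singleton, MvPowerSeries.X_dvd_iff] <;> intro m hm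
  · rw [map_sub, c1, if_pos hm, sub_self]
  · rw [map_sub, c1, c2]
    by_cases h : m 0 = 0
    · rw [if_pos h, if_pos ⟨h, hm⟩, sub_self]
    · rw [if_neg h, if_neg (fun h' => h h'.1), sub_self]
  · rw [c2]
    split_ifs with h
    · have h0 : m = 0 := by
        ext i
        fin_cases i
        · exact h.1
        · exact h.2
        · exact hm
      rw [h0, MvPowerSeries.coeff_zero_eq_constantCoeff_apply, hf]
    · rfl

lemma mem_of_forall_sup_pow {I : Ideal (MvPowerSeries (Fin 3) k)} {a : (MvPowerSeries (Fin 3) k)}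
    (h : ∀ N : ℕ, a ∈ I ⊔ maximalIdeal (MvPowerSeries (Fin 3) k) ^ N) : a ∈ I := by
  have hK := Ideal.iInf_pow_smul_eq_bot_of_isLocalRing (I := maximalIdeal (MvPowerSeries (Fin 3) k)) (M := (MvPowerSeries (Fin 3) k) ⧸ I)
    (maximalIdeal.isMaximal _).ne_top
  have hmem : (Ideal.Quotient.mk I a : (MvPowerSeries (Fin 3) k) ⧸ I) ∈
      (⨅ N : ℕ, maximalIdeal (MvPowerSeries (Fin 3) k) ^ N • ⊤ : Submodule (MvPowerSeries (Fin 3) k) ((MvPowerSeries (Fin 3) k) ⧸ I)) := by
    rw [Submodule.mem_iInf]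
    intro N
    obtain ⟨b, hb, d, hd, rfl⟩ := Submodule.mem_sup.1 (h N)
    rw [map_add, Ideal.Quotient.eq_zero_iff_mem.2 hb, zero_add,
      show (Ideal.Quotient.mk I d : (MvPowerSeries (Fin 3) k) ⧸ I) = d • (1 : (MvPowerSeries (Fin 3) k) ⧸ I) by
        rw [← Algebra.algebraMap_eq_smul_one]; rfl]
    exact Submodule.smul_mem_smul hd Submodule.mem_top
  rw [hK, Submodule.mem_bot] at hmem
  exact Ideal.Quotient.eq_zero_iff_mem.1 hmem

variable {M : Type} [AddCommGroup M] [Module (MvPowerSeries (Fin 3) k) M]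

lemma mem_smul_top_of_regular {I : Ideal (MvPowerSeries (Fin 3) k)} {x : (MvPowerSeries (Fin 3) k)}
    (h : IsSMulRegular (M ⧸ (I • ⊤ : Submodule (MvPowerSeries (Fin 3) k) M)) x) {v : M}
    (hv : x • v ∈ (I • ⊤ : Submodule (MvPowerSeries (Fin 3) k) M)) : v ∈ (I • ⊤ : Submodule (MvPowerSeries (Fin 3) k) M) := by
  have h0 : x • (Submodule.Quotient.mk v : M ⧸ (I • ⊤ : Submodule (MvPowerSeries (Fin 3) k) M)) = x • 0 := by
    rw [smul_zero, ← Submodule.Quotient.mk_smul, (Submodule.Quotient.mk_eq_zero _).2 hv]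
  exact (Submodule.Quotient.mk_eq_zero _).1 (h h0)

lemma coeff_mem_of_step {n : ℕ} (e : Fin n → M) {I : Ideal (MvPowerSeries (Fin 3) k)} {x : (MvPowerSeries (Fin 3) k)}
    (hx : x ∈ maximalIdeal (MvPowerSeries (Fin 3) k)) (hreg : IsSMulRegular (M ⧸ (I • ⊤ : Submodule (MvPowerSeries (Fin 3) k) M)) x)
    (hP : ∀ a : Fin n → (MvPowerSeries (Fin 3) k), ∑ i, a i • e i ∈ ((I ⊔ Ideal.span {x}) • ⊤ : Submodule (MvPowerSeries (Fin 3) k) M) →
      ∀ i, a i ∈ I ⊔ Ideal.span {x}) :
    ∀ a : Fin n → (MvPowerSeries (Fin 3) k), ∑ i, a i • e i ∈ (I • ⊤ : Submodule (MvPowerSeries (Fin 3) k) M) → ∀ i, a i ∈ I := by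
  have key : ∀ N : ℕ, ∀ a : Fin n → (MvPowerSeries (Fin 3) k), ∑ i, a i • e i ∈ (I • ⊤ : Submodule (MvPowerSeries (Fin 3) k) M) →
      ∀ i, a i ∈ I ⊔ maximalIdeal (MvPowerSeries (Fin 3) k) ^ N := by
    intro N
    induction N with
    | zero => intro a _ i; simp
    | succ N ih =>
      intro a ha i
      have hsup := hP a (Submodule.smul_mono_left le_sup_left ha)
      choose b hb c' hc' hsum using fun j => Submodule.mem_sup.1 (hsup j)
      choose c hc using fun j => Ideal.mem_span_singleton'.1 (hc' j)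
      have hxc : x • (∑ j, c j • e j) = (∑ j, a j • e j) - ∑ j, b j • e j := by
        rw [Finset.smul_sum, ← Finset.sum_sub_distrib]
        refine Finset.sum_congr rfl fun j _ => ?_
        rw [← hsum j, ← hc j, add_smul, add_sub_cancel_left, smul_smul, mul_comm]
      have hcI : ∑ j, c j • e j ∈ (I • ⊤ : Submodule (MvPowerSeries (Fin 3) k) M) := by
        refine mem_smul_top_of_regular hreg ?_
        rw [hxc]
        exact sub_mem ha (sum_mem fun j _ => Submodule.smul_mem_smul (hb j) Submodule.mem_top)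
      obtain ⟨u, hu, w, hw, huw⟩ := Submodule.mem_sup.1 (ih c hcI i)
      rw [← hsum i, ← hc i, ← huw, add_mul, ← add_assoc]
      refine Submodule.add_mem_sup (add_mem (hb i) (I.mul_mem_right x hu)) ?_
      rw [pow_succ]
      exact Ideal.mul_mem_mul hw hx
  exact fun a ha i => mem_of_forall_sup_pow fun N => key N a ha i

/-- A finite module with `X, Y, Z` regular has a basis. -/
theorem exists_basis_series [Module.Finite (MvPowerSeries (Fin 3) k) M]
    (hreg : IsWeaklyRegular M [(MvPowerSeries.X 0 : (MvPowerSeries (Fin 3) k)), MvPowerSeries.X 1, MvPowerSeries.X 2]) :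
    ∃ r : ℕ, Nonempty (Module.Basis (Fin r) (MvPowerSeries (Fin 3) k) M) := by
  classical
  have hex : ∃ n, ∃ e : Fin n → M, Submodule.span (MvPowerSeries (Fin 3) k) (Set.range e) = ⊤ := Module.Finite.exists_fin
  obtain ⟨e, he⟩ := Nat.find_spec hex
  refine ⟨Nat.find hex, ⟨Module.Basis.mk (v := e) ?_ he.ge⟩⟩
  set X0 : (MvPowerSeries (Fin 3) k) := MvPowerSeries.X 0
  set X1 : (MvPowerSeries (Fin 3) k) := MvPowerSeries.X 1
  set X2 : (MvPowerSeries (Fin 3) k) := MvPowerSeries.X 2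
  have hmax : ∀ a : Fin (Nat.find hex) → (MvPowerSeries (Fin 3) k),
      ∑ i, a i • e i ∈ (maximalIdeal (MvPowerSeries (Fin 3) k) • ⊤ : Submodule (MvPowerSeries (Fin 3) k) M) → ∀ i, a i ∈ maximalIdeal (MvPowerSeries (Fin 3) k) := by
    intro a ha i
    by_contra hu
    have hu' : IsUnit (a i) := by rwa [mem_maximalIdeal, mem_nonunits_iff, not_not] at hu
    obtain ⟨n', hn'⟩ : ∃ n', Nat.find hex = n' + 1 := ⟨Nat.find hex - 1, by have := i.2; omega⟩
    have hmin : ∀ e' : Fin n' → M, Submodule.span (MvPowerSeries (Fin 3) k) (Set.range e') ≠ ⊤ := fun e' h =>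
      Nat.find_min hex (by omega : n' < Nat.find hex) ⟨e', h⟩
    let i' : Fin (n' + 1) := Fin.cast hn' i
    let e' : Fin n' → M := fun j => e (Fin.cast hn'.symm (i'.succAbove j))
    refine hmin e' ?_
    set N := Submodule.span (MvPowerSeries (Fin 3) k) (Set.range e') with hN
    have hothers : ∀ j, j ≠ i → e j ∈ N := by
      intro j hj
      obtain ⟨l, hl⟩ := Fin.exists_succAbove_eq (x := Fin.cast hn' j) (y := i')
        (fun h => hj (Fin.cast_injective hn' h))
      refine Submodule.subset_span ⟨l, ?_⟩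
      show e (Fin.cast hn'.symm (i'.succAbove l)) = e j
      rw [show i'.succAbove l = Fin.cast hn' j from hl]
      rfl
    have hei : e i ∈ N ⊔ maximalIdeal (MvPowerSeries (Fin 3) k) • (⊤ : Submodule (MvPowerSeries (Fin 3) k) M) := by
      have h1 : a i • e i = (∑ j, a j • e j) - ∑ j ∈ Finset.univ.erase i, a j • e j :=
        eq_sub_of_add_eq (Finset.add_sum_erase _ (fun j => a j • e j) (Finset.mem_univ i))
      have h2 : a i • e i ∈ N ⊔ maximalIdeal (MvPowerSeries (Fin 3) k) • (⊤ : Submodule (MvPowerSeries (Fin 3) k) M) := by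
        rw [h1]
        refine sub_mem (Submodule.mem_sup_right ha) (Submodule.mem_sup_left (sum_mem fun j hj => ?_))
        exact N.smul_mem _ (hothers j (Finset.ne_of_mem_erase hj))
      obtain ⟨u, hu''⟩ := hu'
      rw [← hu''] at h2
      have h3 := Submodule.smul_mem _ (↑u⁻¹ : (MvPowerSeries (Fin 3) k)) h2
      rwa [smul_smul, Units.inv_mul, one_smul] at h3
    refine top_le_iff.1 (Submodule.le_of_le_smul_of_le_jacobson_bot Module.Finite.fg_top
      (IsLocalRing.jacobson_eq_maximalIdeal ⊥ bot_ne_top).ge ?_)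
    rw [← he, Submodule.span_le]
    rintro _ ⟨j, rfl⟩
    by_cases hj : j = i
    · subst hj
      rw [he]
      exact hei
    · exact Submodule.mem_sup_left (hothers j hj)
  have r0 : IsSMulRegular (M ⧸ (Ideal.ofList ([] : List (MvPowerSeries (Fin 3) k)) • ⊤ :
      Submodule (MvPowerSeries (Fin 3) k) M)) X0 := hreg.regular_mod_prev 0 (by simp)
  have r1 : IsSMulRegular (M ⧸ (Ideal.ofList [X0] • ⊤ : Submodule (MvPowerSeries (Fin 3) k) M)) X1 :=
    hreg.regular_mod_prev 1 (by simp)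
  have r2 : IsSMulRegular (M ⧸ (Ideal.ofList [X0, X1] • ⊤ : Submodule (MvPowerSeries (Fin 3) k) M))
      X2 := hreg.regular_mod_prev 2 (by simp)
  have t1 : Ideal.ofList [X0] = Ideal.span {X0} := Ideal.ofList_singleton X0
  have t2 : Ideal.ofList [X0, X1] = Ideal.span {X0} ⊔ Ideal.span {X1} := by
    rw [Ideal.ofList_cons, Ideal.ofList_singleton]
  have hle : Ideal.span {X0} ⊔ Ideal.span {X1} ⊔ Ideal.span {X2} ≤ maximalIdeal (MvPowerSeries (Fin 3) k) := by
    refine sup_le (sup_le ?_ ?_) ?_ <;>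
      rw [Ideal.span_le, Set.singleton_subset_iff] <;> exact X_mem_maximalIdeal _
  have P3 : ∀ a : Fin (Nat.find hex) → (MvPowerSeries (Fin 3) k), ∑ i, a i • e i ∈
      ((Ideal.span {X0} ⊔ Ideal.span {X1} ⊔ Ideal.span {X2}) • ⊤ : Submodule (MvPowerSeries (Fin 3) k) M) →
      ∀ i, a i ∈ Ideal.span {X0} ⊔ Ideal.span {X1} ⊔ Ideal.span {X2} :=
    fun a ha i => maximalIdeal_series_le (hmax a (Submodule.smul_mono_left hle ha) i)
  have P2 := coeff_mem_of_step e (X_mem_maximalIdeal 2) r2 (by rw [t2]; exact P3)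
  have P1 := coeff_mem_of_step e (X_mem_maximalIdeal 1) r1 (by rw [t1, ← t2]; exact P2)
  have P0 := coeff_mem_of_step e (X_mem_maximalIdeal 0) r0
    (by rw [Ideal.ofList_nil, bot_sup_eq, ← t1]; exact P1)
  rw [Fintype.linearIndependent_iff]
  intro a ha i
  exact (Ideal.mem_bot).1 (Ideal.ofList_nil (R := MvPowerSeries (Fin 3) k) ▸ P0 a (by rw [ha]; exact zero_mem _) i)

end Vale.Agent.P190
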