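import Vale.Agent.P190.Hat.Dim

/-!
P190, Module 7 (HAT): the parameters are a regular sequence on every module of depth three.
-/

open IsLocalRing RingTheory.Sequence CategoryTheory Abelian Limits Pointwise

namespace Vale.Agent.P190

section general

variable {R : Type} [CommRing R] [IsNoetherianRing R] [IsLocalRing R]
  {M : Type} [AddCommGroup M] [Module R M] [Module.Finite R M]

omit [IsLocalRing R] [Module.Finite R M] in
lemma mem_of_smul_eq_zero {P : Ideal R} (hP : IsAssociatedPrime P M) {r : R}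
    (hr : ∀ y : M, r • y = 0) : r ∈ P := by
  obtain ⟨-, x, rfl⟩ := isAssociatedPrime_iff.1 hP
  rw [Submodule.mem_colon_singleton, Submodule.mem_bot]
  exact hr x

omit [IsLocalRing R] [Module.Finite R M] in
lemma exists_assoc_of_not_regular {r : R} (hr : ¬ IsSMulRegular M r) :
    ∃ P : Ideal R, IsAssociatedPrime P M ∧ r ∈ P := by
  obtain ⟨y, hy, hy0⟩ : ∃ y : M, r • y = 0 ∧ y ≠ 0 := by
    by_contra h
    push Not at h
    exact hr fun a b hab => sub_eq_zero.1 (h (a - b) (by rw [smul_sub]; exact sub_eq_zero.2 hab))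
  obtain ⟨P, hP, hle⟩ := exists_le_isAssociatedPrime_of_isNoetherianRing R y hy0
  exact ⟨P, hP, hle (by rw [Submodule.mem_colon_singleton, Submodule.mem_bot]; exact hy)⟩

/-- Passing to `M / f M` pushes an associated prime strictly up. -/
lemma assoc_step {f : R} (hf : f ∈ maximalIdeal R) (hreg : IsSMulRegular M f)
    {P : Ideal R} (hP : IsAssociatedPrime P M) :
    ∃ Q : Ideal R, IsAssociatedPrime Q (QuotSMulTop f M) ∧ P < Q := by
  obtain ⟨hp, x, hx⟩ := isAssociatedPrime_iff.1 hP
  have hkill : ∀ p ∈ P, p • x = 0 := fun p hpP => by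
    rw [hx, Submodule.mem_colon_singleton, Submodule.mem_bot] at hpP
    exact hpP
  have hx0 : x ≠ 0 := by
    rintro rfl
    refine hp.ne_top ((Ideal.eq_top_iff_one P).2 ?_)
    rw [hx, Submodule.mem_colon_singleton, Submodule.mem_bot, smul_zero]
  let N : Submodule R M :=
    { carrier := {y | ∀ p ∈ P, p • y = 0}
      add_mem' := fun {a b} ha hb p hp => by rw [smul_add, ha p hp, hb p hp, add_zero]
      zero_mem' := fun p _ => smul_zero p
      smul_mem' := fun c a ha p hp => by rw [smul_comm, ha p hp, smul_zero] }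
  obtain ⟨y, hy, hyf⟩ : ∃ y ∈ N, y ∉ f • (⊤ : Submodule R M) := by
    by_contra h
    push Not at h
    refine hx0 ?_
    have hN : N = ⊥ := by
      refine Submodule.eq_bot_of_le_smul_of_le_jacobson_bot (Ideal.span {f}) N (IsNoetherian.noetherian N)
        ?_ ?_
      · intro z hz
        obtain ⟨w, -, rfl⟩ := (Submodule.mem_smul_pointwise_iff_exists _ _ _).1 (h z hz)
        refine Submodule.smul_mem_smul (Ideal.mem_span_singleton_self f) fun p hpP => ?_
        refine hreg ?_
        show f • p • w = f • (0 : M)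
        rw [smul_zero, smul_comm]
        exact hz p hpP
      · rw [IsLocalRing.jacobson_eq_maximalIdeal ⊥ bot_ne_top, Ideal.span_le]
        exact Set.singleton_subset_iff.2 hf
    exact (Submodule.mem_bot R).1 (hN ▸ (hkill : x ∈ N))
  let z : QuotSMulTop f M := Submodule.Quotient.mk y
  have hz : z ≠ 0 := fun h => hyf ((Submodule.Quotient.mk_eq_zero _).1 h)
  obtain ⟨Q, hQ, hle⟩ := exists_le_isAssociatedPrime_of_isNoetherianRing R z hz
  refine ⟨Q, hQ, lt_of_le_of_ne (fun p hpP => hle ?_) ?_⟩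
  · rw [Submodule.mem_colon_singleton, Submodule.mem_bot]
    show Submodule.Quotient.mk (p • y) = (0 : QuotSMulTop f M)
    rw [hy p hpP, Submodule.Quotient.mk_zero]
  · intro hPQ
    have hfQ : f ∈ Q := hle <| by
      rw [Submodule.mem_colon_singleton, Submodule.mem_bot]
      exact (Submodule.Quotient.mk_eq_zero _).2 (Submodule.smul_mem_pointwise_smul y f ⊤ trivial)
    rw [← hPQ] at hfQ
    exact hx0 (hreg (show f • x = f • 0 by rw [hkill f hfQ, smul_zero]))

omit [IsNoetherianRing R] in
lemma maximalIdeal_smul_top_lt [Nontrivial M] :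
    maximalIdeal R • (⊤ : Submodule R M) < ⊤ := by
  refine lt_top_iff_ne_top.2 fun h => top_ne_bot (α := Submodule R M) ?_
  exact Submodule.eq_bot_of_le_smul_of_le_jacobson_bot _ _ Module.Finite.fg_top h.ge
    (IsLocalRing.jacobson_eq_maximalIdeal ⊥ bot_ne_top).ge

/-- A regular element shortens the available regular sequences by one. -/
lemma exists_regular_drop {x : R} (hxm : x ∈ maximalIdeal R) (hx : IsSMulRegular M x) {n : ℕ}
    {rs : List R} (hlen : rs.length = n + 1) (hmem : ∀ r ∈ rs, r ∈ maximalIdeal R)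
    (hrs : IsRegular M rs) :
    ∃ rs' : List R, rs'.length = n ∧ (∀ r ∈ rs', r ∈ maximalIdeal R) ∧
      IsRegular (QuotSMulTop x M) rs' := by
  haveI : Nontrivial M := hrs.nontrivial
  haveI : Nontrivial (QuotSMulTop x M) := nontrivial_quotSMulTop_of_mem_maximalIdeal M hxm
  let I := maximalIdeal R
  let N : ModuleCat.{0} R := ModuleCat.of R (R ⧸ I)
  have hsupp : Module.support R (R ⧸ I) = PrimeSpectrum.zeroLocus I := by
    rw [Module.support_eq_zeroLocus, Ideal.annihilator_quotient]
  have h := ModuleCat.subsingleton_ext_of_exists_isRegular I N hsupp.subset (ModuleCat.of R M)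
    maximalIdeal_smul_top_lt rs hmem hrs
  let Mc : ModuleCat.{0} R := ModuleCat.of R M
  haveI : Module.Finite R Mc := inferInstanceAs (Module.Finite R M)
  have hx' : IsSMulRegular Mc x := hx
  have hlt : maximalIdeal R • (⊤ : Submodule R (QuotSMulTop x M)) < ⊤ := maximalIdeal_smul_top_lt
  have key : ∀ i < n, Subsingleton (Ext N (ModuleCat.of R (QuotSMulTop x Mc)) i) := by
    intro i hi
    have zero1 := AddCommGrpCat.isZero_of_iff_subsingleton.mpr (h i (by omega))
    have zero2 := AddCommGrpCat.isZero_of_iff_subsingleton.mpr (h (i + 1) (by omega))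
    exact AddCommGrpCat.subsingleton_of_isZero <| ShortComplex.Exact.isZero_of_both_zeros
      ((Ext.covariant_sequence_exact₃' N hx'.smulShortComplex_shortExact) i (i + 1) rfl)
      (zero1.eq_zero_of_src _) (zero2.eq_zero_of_tgt _)
  exact ModuleCat.exists_isRegular_of_exists_subsingleton_ext I n
    (ModuleCat.of R (QuotSMulTop x Mc)) hlt N hsupp key

omit [Module.Finite R M] [IsNoetherianRing R] [IsLocalRing R] in
lemma smul_quotSMulTop_eq_zero (x : R) (y : QuotSMulTop x M) : x • y = 0 := by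
  obtain ⟨z, rfl⟩ := Submodule.Quotient.mk_surjective _ y
  exact (Submodule.Quotient.mk_eq_zero _).2 (Submodule.smul_mem_pointwise_smul z x ⊤ trivial)

omit [Module.Finite R M] [IsNoetherianRing R] [IsLocalRing R] in
lemma smul_quotSMulTop_eq_zero' (r x : R) (h : ∀ y : M, r • y = 0) (y : QuotSMulTop x M) :
    r • y = 0 := by
  obtain ⟨z, rfl⟩ := Submodule.Quotient.mk_surjective _ y
  rw [← Submodule.Quotient.mk_smul, h z, Submodule.Quotient.mk_zero]

end general

namespace Ring3

variable {k K : Type} [Field k] [Field K] [Algebra k K] (C : Ring3 k K)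

lemma lin_one_ne_zero : C.lin 1 C.one_mem ≠ 0 := fun h => by
  have := congrArg (fun f : C.Hat => PowerSeries.coeff 1 (f : PowerSeries K)) h
  simp [coe_lin] at this

/-- The parameters are a regular sequence on a module with a regular sequence of length three. -/
theorem params_weaklyRegular [IsLocalRing C.Hat] {M : Type} [AddCommGroup M] [Module C.Hat M]
    [Module.Finite C.Hat M] {rs : List C.Hat} (hlen : rs.length = 3)
    (hmem : ∀ a ∈ rs, a ∈ maximalIdeal C.Hat) (hrs : IsRegular M rs) :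
    IsWeaklyRegular M C.params := by
  haveI := C.isNoetherianRing_hat
  set X := C.lin 1 C.one_mem with hX
  set Y := C.lin C.η C.η_mem with hY
  set Z := C.lin C.ζ C.ζ_mem with hZ
  have hXm : X ∈ maximalIdeal C.Hat := by
    rw [C.maximalIdeal_eq]; exact C.par_le_ord_one C.lin_mem_par.1
  have hYm : Y ∈ maximalIdeal C.Hat := by
    rw [C.maximalIdeal_eq]; exact C.par_le_ord_one C.lin_mem_par.2.1
  have hpar : ∀ {P : Ideal C.Hat}, X ∈ P → Y ∈ P → Z ∈ P → C.par ≤ P := by
    intro P h1 h2 h3
    rw [par, Ideal.ofList, Ideal.span_le]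
    intro x hx
    simp only [params, List.mem_cons, List.not_mem_nil, or_false, Set.mem_ofPred_eq] at hx
    rcases hx with rfl | rfl | rfl <;> assumption
  -- `X` is regular on `M`
  have h1 : IsSMulRegular M X := by
    by_contra hcon
    obtain ⟨P, hP, hXP⟩ := exists_assoc_of_not_regular hcon
    match rs, hlen with
    | [a, b, c], _ =>
      obtain ⟨ha, hrest⟩ := (isRegular_cons_iff M a [b, c]).1 hrs
      obtain ⟨hb, hrest'⟩ := (isRegular_cons_iff _ b [c]).1 hrest
      obtain ⟨hc, -⟩ := (isRegular_cons_iff _ c []).1 hrest'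
      obtain ⟨Q1, hQ1, l1⟩ := assoc_step (hmem a (by simp)) ha hP
      obtain ⟨Q2, hQ2, l2⟩ := assoc_step (hmem b (by simp)) hb hQ1
      obtain ⟨Q3, hQ3, l3⟩ := assoc_step (hmem c (by simp)) hc hQ2
      let s : LTSeries (PrimeSpectrum C.Hat) := LTSeries.mk 4
        ![⟨⊥, Ideal.isPrime_bot⟩, ⟨P, hP.1⟩, ⟨Q1, hQ1.1⟩, ⟨Q2, hQ2.1⟩, ⟨Q3, hQ3.1⟩] (by
        refine Fin.strictMono_iff_lt_succ.2 fun i => ?_
        fin_cases i
        · show (⊥ : Ideal C.Hat) < P
          exact bot_lt_iff_ne_bot.2 fun h : P = ⊥ =>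
            C.lin_one_ne_zero ((Ideal.mem_bot).1 (h ▸ hXP))
        · exact l1
        · exact l2
        · exact l3)
      have h4 : ((4 : ℕ) : WithBot ℕ∞) ≤ ringKrullDim C.Hat := Order.LTSeries.length_le_krullDim s
      rw [C.ringKrullDim_hat] at h4
      exact absurd (show (4 : ℕ) ≤ 3 by exact_mod_cast h4) (by norm_num)
  obtain ⟨rs1, hlen1, hmem1, hrs1⟩ := exists_regular_drop hXm h1 hlen hmem hrs
  -- `Y` is regular on `M / X M`
  have h2 : IsSMulRegular (QuotSMulTop X M) Y := by
    by_contra hcon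
    obtain ⟨P, hP, hYP⟩ := exists_assoc_of_not_regular hcon
    have hXP : X ∈ P := mem_of_smul_eq_zero hP (smul_quotSMulTop_eq_zero X)
    match rs1, hlen1 with
    | [a, b], _ =>
      obtain ⟨ha, hrest⟩ := (isRegular_cons_iff _ a [b]).1 hrs1
      obtain ⟨hb, -⟩ := (isRegular_cons_iff _ b []).1 hrest
      obtain ⟨Q1, hQ1, l1⟩ := assoc_step (hmem1 a (by simp)) ha hP
      obtain ⟨Q2, hQ2, l2⟩ := assoc_step (hmem1 b (by simp)) hb hQ1
      haveI := hP.1
      haveI : IsLocalRing (C.Hat ⧸ P) :=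
        IsLocalRing.of_surjective' (Ideal.Quotient.mk P) Ideal.Quotient.mk_surjective
      let z : C.Hat ⧸ P := Ideal.Quotient.mk P Z
      have hsub : (({z} : Finset (C.Hat ⧸ P)) : Set (C.Hat ⧸ P)) ⊆ Ring.jacobson (C.Hat ⧸ P) := by
        rw [IsLocalRing.ringJacobson_eq_maximalIdeal, Finset.coe_singleton, Set.singleton_subset_iff,
          SetLike.mem_coe, mem_maximalIdeal, mem_nonunits_iff]
        intro hu
        have hZm : Z ∈ maximalIdeal C.Hat := by
          rw [C.maximalIdeal_eq]; exact C.par_le_ord_one C.lin_mem_par.2.2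
        haveI : IsLocalHom (Ideal.Quotient.mk P) :=
          IsLocalHom.of_surjective _ Ideal.Quotient.mk_surjective
        exact (mem_maximalIdeal _).1 hZm (isUnit_of_map_unit (Ideal.Quotient.mk P) Z hu)
      have hbound := ringKrullDim_le_ringKrullDim_quotient_add_card ({z} : Finset (C.Hat ⧸ P)) hsub
      have hzero : ringKrullDim ((C.Hat ⧸ P) ⧸
          Ideal.span (({z} : Finset (C.Hat ⧸ P)) : Set (C.Hat ⧸ P))) ≤ 0 := by
        rw [ringKrullDim_quotient]
        refine Order.krullDim_nonpos_iff_forall_isMin.2 fun x y _ => le_of_eq ?_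
        refine Subtype.ext (PrimeSpectrum.ext ?_)
        refine Ideal.comap_injective_of_surjective _ Ideal.Quotient.mk_surjective ?_
        have hall : ∀ u : PrimeSpectrum (C.Hat ⧸ P), z ∈ u.asIdeal →
            u.asIdeal.comap (Ideal.Quotient.mk P) = maximalIdeal C.Hat := by
          intro u hu
          have hPu : P ≤ u.asIdeal.comap (Ideal.Quotient.mk P) := fun p hp => by
            rw [Ideal.mem_comap, Ideal.Quotient.eq_zero_iff_mem.2 hp]; exact zero_mem _
          exact C.prime_eq_max (u.2.comap _) (hpar (hPu hXP) (hPu hYP) hu)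
        have hin : ∀ u : PrimeSpectrum.zeroLocus
            (Ideal.span (({z} : Finset (C.Hat ⧸ P)) : Set (C.Hat ⧸ P)) : Set (C.Hat ⧸ P)),
            z ∈ u.1.asIdeal := fun u => u.2 (Ideal.subset_span (by simp))
        rw [hall x.1 (hin x), hall y.1 (hin y)]
      have h1' : ringKrullDim (C.Hat ⧸ P) ≤ 1 := by
        refine hbound.trans ?_
        calc _ ≤ (0 : WithBot ℕ∞) + (1 : ℕ) := by gcongr; simp
          _ = 1 := by simp
      rw [ringKrullDim_quotient] at h1'
      let s : LTSeries (PrimeSpectrum.zeroLocus (P : Set C.Hat)) := LTSeries.mk 2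
        ![⟨⟨P, hP.1⟩, le_refl (P : Set C.Hat)⟩, ⟨⟨Q1, hQ1.1⟩, l1.le⟩,
          ⟨⟨Q2, hQ2.1⟩, (l1.trans l2).le⟩] (by
        refine Fin.strictMono_iff_lt_succ.2 fun i => ?_
        fin_cases i
        · exact l1
        · exact l2)
      have h2' : ((2 : ℕ) : WithBot ℕ∞) ≤ 1 := (Order.LTSeries.length_le_krullDim s).trans h1'
      exact absurd (show (2 : ℕ) ≤ 1 by exact_mod_cast h2') (by norm_num)
  obtain ⟨rs2, hlen2, hmem2, hrs2⟩ := exists_regular_drop hYm h2 hlen1 hmem1 hrs1
  -- `Z` is regular on `M / (X, Y) M`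
  have h3 : IsSMulRegular (QuotSMulTop Y (QuotSMulTop X M)) Z := by
    by_contra hcon
    obtain ⟨P, hP, hZP⟩ := exists_assoc_of_not_regular hcon
    have hYP : Y ∈ P := mem_of_smul_eq_zero hP (smul_quotSMulTop_eq_zero Y)
    have hXP : X ∈ P :=
      mem_of_smul_eq_zero hP (smul_quotSMulTop_eq_zero' X Y (smul_quotSMulTop_eq_zero X))
    match rs2, hlen2 with
    | [a], _ =>
      obtain ⟨ha, -⟩ := (isRegular_cons_iff _ a []).1 hrs2
      obtain ⟨Q, hQ, l⟩ := assoc_step (hmem2 a (by simp)) ha hP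
      rw [C.prime_eq_max hP.1 (hpar hXP hYP hZP)] at l
      exact (le_maximalIdeal hQ.1.ne_top).not_gt l
  exact IsWeaklyRegular.cons h1 (IsWeaklyRegular.cons h2 (IsWeaklyRegular.cons h3 (IsWeaklyRegular.nil _ _)))

end Ring3

end Vale.Agent.P190
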