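import Vale.Agent.P190.Spec
import Vale.Agent.P190.Hat.Regular
import Vale.Agent.P190.Hat.Free

/-!
P190, Module 7 (HAT): a module of depth three gives actions on a free module to every order.
-/

open IsLocalRing RingTheory.Sequence

namespace Vale.Agent.P190

namespace Ring3

variable {k K : Type} [Field k] [Field K] [Algebra k K] (C : Ring3 k K)

lemma isSmall_map_truncTotal_mul_sub {r : ℕ} (L : ℕ)
    (P Q : Matrix (Fin r) (Fin r) (MvPowerSeries (Fin 3) k)) :
    IsSmall (k := k) L ((P * Q).map (MvPowerSeries.truncTotal L)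
      - P.map (MvPowerSeries.truncTotal L) * Q.map (MvPowerSeries.truncTotal L)) := by
  intro i j s hs
  have hs' : Finsupp.degree s < L := by rwa [Finsupp.degree_eq_sum]
  simp only [Matrix.sub_apply, Matrix.map_apply, Matrix.mul_apply, MvPolynomial.coeff_sub, map_sum,
    MvPolynomial.coeff_sum]
  rw [← Finset.sum_sub_distrib]
  refine Finset.sum_eq_zero fun l _ => ?_
  rw [MvPowerSeries.coeff_truncTotal _ hs',
    MvPowerSeries.coeff_truncTotal_mul_truncTotal_eq_coeff_mul _ _ hs', sub_self]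

lemma isSmall_scalar {r : ℕ} (L : ℕ) (i : Fin 3) :
    IsSmall (k := k) L
      (((MvPowerSeries.X i : MvPowerSeries (Fin 3) k) • (1 : Matrix (Fin r) (Fin r)
        (MvPowerSeries (Fin 3) k))).map (MvPowerSeries.truncTotal L)
      - (MvPolynomial.X i : MvPolynomial (Fin 3) k) • (1 : Matrix (Fin r) (Fin r)
        (MvPolynomial (Fin 3) k))) := by
  intro a b s hs
  have hs' : Finsupp.degree s < L := by rwa [Finsupp.degree_eq_sum]
  simp only [Matrix.sub_apply, Matrix.map_apply, Matrix.smul_apply, MvPolynomial.coeff_sub,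
    smul_eq_mul]
  rw [MvPowerSeries.coeff_truncTotal _ hs']
  by_cases hab : a = b
  · subst hab
    rw [Matrix.one_apply_eq, Matrix.one_apply_eq, mul_one, mul_one, ← MvPolynomial.coeff_coe,
      MvPolynomial.coe_X, sub_self]
  · rw [Matrix.one_apply_ne hab, Matrix.one_apply_ne hab, mul_zero, mul_zero, map_zero,
      MvPolynomial.coeff_zero, sub_zero]

lemma hom_one_zero (h : (1 : K) ∈ C.R ((0 : ℕ) : ℤ)) : C.hom 0 ⟨1, h⟩ = 1 := by
  refine Subtype.ext ?_
  simp [hom]

lemma hom_mul (m n : ℕ) (a : C.R (m : ℤ)) (b : C.R (n : ℤ))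
    (h : (a : K) * b ∈ C.R ((m + n : ℕ) : ℤ)) :
    C.hom (m + n) ⟨(a : K) * b, h⟩ = C.hom m a * C.hom n b := by
  refine Subtype.ext ?_
  show PowerSeries.monomial (m + n) ((a : K) * b)
    = PowerSeries.monomial m (a : K) * PowerSeries.monomial n (b : K)
  rw [PowerSeries.monomial_mul_monomial]

lemma hom_vars (i : Fin 3) (c : K) (hc : C.vars i = PowerSeries.monomial 1 c)
    (h : c ∈ C.R ((1 : ℕ) : ℤ)) : C.hom 1 ⟨c, h⟩ = C.φ (MvPowerSeries.X i) := by
  refine Subtype.ext ?_
  rw [C.φ_X, hc]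
  rfl

lemma params_eq_map :
    C.params = ([MvPowerSeries.X 0, MvPowerSeries.X 1, MvPowerSeries.X 2] :
      List (MvPowerSeries (Fin 3) k)).map (algebraMap (MvPowerSeries (Fin 3) k) C.Hat) := by
  simp only [params, List.map_cons, List.map_nil, C.algebraMap_hat]
  congr 1
  · exact Subtype.ext (C.φ_X 0).symm
  · congr 1
    · exact Subtype.ext (C.φ_X 1).symm
    · congr 1
      exact Subtype.ext (C.φ_X 2).symm

theorem approx_of_regular [IsLocalRing C.Hat] (M : Type) [AddCommGroup M] [Module C.Hat M]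
    [Module.Finite C.Hat M] (rs : List C.Hat) (hlen : rs.length = 3)
    (hmem : ∀ a ∈ rs, a ∈ maximalIdeal C.Hat) (hrs : IsRegular M rs) :
    ∃ r : ℕ, 0 < r ∧ ∀ L : ℕ, C.Approx r L := by
  classical
  have hpar := C.params_weaklyRegular hlen hmem hrs
  haveI : Nontrivial M := hrs.nontrivial
  letI : Module (MvPowerSeries (Fin 3) k) M := Module.compHom M C.φ
  haveI : IsScalarTower (MvPowerSeries (Fin 3) k) C.Hat M := ⟨fun a h x => mul_smul (C.φ a) h x⟩
  haveI := C.finite_hat
  haveI : Module.Finite (MvPowerSeries (Fin 3) k) M := Module.Finite.trans C.Hat M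
  rw [C.params_eq_map, isWeaklyRegular_map_algebraMap_iff] at hpar
  obtain ⟨r, ⟨b⟩⟩ := exists_basis_series hpar
  refine ⟨r, ?_, fun L => ?_⟩
  · rcases Nat.eq_zero_or_pos r with rfl | h
    · exact absurd b.index_nonempty (not_nonempty_iff.2 Fin.isEmpty)
    · exact h
  let Ψ : C.Hat →ₐ[MvPowerSeries (Fin 3) k] Matrix (Fin r) (Fin r) (MvPowerSeries (Fin 3) k) :=
    (LinearMap.toMatrixAlgEquiv b).toAlgHom.comp
      (Algebra.lsmul (MvPowerSeries (Fin 3) k) (MvPowerSeries (Fin 3) k) M)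
  have hΨ : ∀ a, Ψ (C.φ a) = a • (1 : Matrix (Fin r) (Fin r) (MvPowerSeries (Fin 3) k)) := fun a => by
    rw [← C.algebraMap_hat, AlgHom.commutes, Algebra.algebraMap_eq_smul_one]
  let Φ : ∀ n : ℕ, C.R n →ₗ[k] Matrix (Fin r) (Fin r) (MvPolynomial (Fin 3) k) := fun n =>
    LinearMap.mk
      (AddHom.mk (fun a => (Ψ (C.hom n a)).map (MvPowerSeries.truncTotal L))
        (fun a a' => by rw [C.hom_add, map_add]; exact Matrix.map_add _ (map_add _) _ _))
      (fun c a => by
        show (Ψ (C.hom n (c • a))).map (MvPowerSeries.truncTotal L)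
          = c • (Ψ (C.hom n a)).map (MvPowerSeries.truncTotal L)
        rw [C.hom_smul, map_mul, hΨ, smul_mul_assoc, one_mul]
        ext i j : 1
        rw [Matrix.map_apply, Matrix.smul_apply, Matrix.smul_apply, Matrix.map_apply, smul_eq_mul,
          ← MvPowerSeries.smul_eq_C_mul, map_smul])
  refine ⟨Φ, ?_, ?_, ?_, ?_, ?_⟩
  · intro h i j s hs
    have hs' : Finsupp.degree s < L := by rwa [Finsupp.degree_eq_sum]
    show MvPolynomial.coeff s
      ((((Ψ (C.hom 0 ⟨1, h⟩)).map (MvPowerSeries.truncTotal L)) - 1) i j) = 0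
    rw [C.hom_one_zero h, map_one, Matrix.sub_apply, Matrix.map_apply, MvPolynomial.coeff_sub,
      MvPowerSeries.coeff_truncTotal _ hs']
    by_cases hij : i = j
    · subst hij
      rw [Matrix.one_apply_eq, Matrix.one_apply_eq, ← MvPolynomial.coeff_coe, MvPolynomial.coe_one,
        sub_self]
    · rw [Matrix.one_apply_ne hij, Matrix.one_apply_ne hij, map_zero, MvPolynomial.coeff_zero,
        sub_zero]
  · show IsSmall (k := k) L ((Ψ (C.hom 1 ⟨1, _⟩)).map (MvPowerSeries.truncTotal L) - _)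
    rw [C.hom_vars 0 1 rfl, hΨ]
    exact isSmall_scalar L 0
  · show IsSmall (k := k) L ((Ψ (C.hom 1 ⟨C.η, _⟩)).map (MvPowerSeries.truncTotal L) - _)
    rw [C.hom_vars 1 C.η rfl, hΨ]
    exact isSmall_scalar L 1
  · show IsSmall (k := k) L ((Ψ (C.hom 1 ⟨C.ζ, _⟩)).map (MvPowerSeries.truncTotal L) - _)
    rw [C.hom_vars 2 C.ζ rfl, hΨ]
    exact isSmall_scalar L 2
  · intro m n _ a a' h
    show IsSmall (k := k) L ((Ψ (C.hom (m + n) ⟨(a : K) * a', h⟩)).map (MvPowerSeries.truncTotal L)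
      - (Ψ (C.hom m a)).map (MvPowerSeries.truncTotal L)
        * (Ψ (C.hom n a')).map (MvPowerSeries.truncTotal L))
    rw [C.hom_mul, map_mul]
    exact isSmall_map_truncTotal_mul_sub L _ _

end Ring3

theorem hatModule : HatModule := by
  intro k K _ _ _ C
  haveI := C.isLocalRing_hat
  exact ⟨C.isNoetherianRing_hat, C.ringKrullDim_hat, C.isLocalRing_hat, C.isAdicComplete_hat,
    fun M _ _ _ rs hlen hmem hrs => C.approx_of_regular M rs hlen hmem hrs⟩

end Vale.Agent.P190
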