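import Vale.Agent.P190.Defs

/-!
P190, Module 7 (HAT): the completion is a finite algebra over `k⟦X, Y, Z⟧`, hence Noetherian; it is
local and adically complete.
-/

open IsLocalRing

namespace Vale.Agent.P190

namespace Ring3

variable {k K : Type} [Field k] [Field K] [Algebra k K] (C : Ring3 k K)

/-- The monomial of degree `|s|` divided by `x ^ |s|`. -/
def ev (s : Fin 3 →₀ ℕ) : K := C.η ^ s 1 * C.ζ ^ s 2

/-- The images of the variables. -/
noncomputable def vars : Fin 3 → MvPowerSeries Unit K :=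
  ![PowerSeries.monomial 1 (1 : K), PowerSeries.monomial 1 C.η, PowerSeries.monomial 1 C.ζ]

lemma hasSubst_vars : MvPowerSeries.HasSubst C.vars := by
  refine MvPowerSeries.hasSubst_of_constantCoeff_zero fun s => ?_
  fin_cases s <;>
  · show PowerSeries.constantCoeff (PowerSeries.monomial 1 _) = 0
    rw [← PowerSeries.coeff_zero_eq_constantCoeff_apply, PowerSeries.coeff_monomial]
    simp

/-- The exponents of total degree `n`. -/
def deg3 (n : ℕ) : Finset (Fin 3 →₀ ℕ) := Finset.finsuppAntidiag Finset.univ n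

omit [Field k] [Field K] in
lemma mem_deg3 {n : ℕ} {s : Fin 3 →₀ ℕ} : s ∈ deg3 n ↔ s 0 + s 1 + s 2 = n := by
  simp [deg3, Finset.mem_finsuppAntidiag, Fin.sum_univ_three]

lemma prod_vars (s : Fin 3 →₀ ℕ) :
    (s.prod fun i e => (C.vars i) ^ e) = PowerSeries.monomial (s 0 + s 1 + s 2) (C.ev s) := by
  rw [Finsupp.prod_fintype _ _ (fun i => pow_zero _), Fin.prod_univ_three]
  show (PowerSeries.monomial 1 (1 : K)) ^ s 0 * (PowerSeries.monomial 1 C.η) ^ s 1 *
    (PowerSeries.monomial 1 C.ζ) ^ s 2 = _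
  simp only [PowerSeries.monomial_pow, PowerSeries.monomial_mul_monomial, one_pow, one_mul, mul_one,
    ev]

lemma coeff_subst_vars (f : MvPowerSeries (Fin 3) k) (n : ℕ) :
    PowerSeries.coeff n (MvPowerSeries.subst C.vars f : PowerSeries K)
      = ∑ s ∈ deg3 n, algebraMap k K (MvPowerSeries.coeff s f) * C.ev s := by
  show MvPowerSeries.coeff (Finsupp.single () n) (MvPowerSeries.subst C.vars f) = _
  rw [MvPowerSeries.coeff_subst C.hasSubst_vars]
  have key : ∀ d : Fin 3 →₀ ℕ,
      MvPowerSeries.coeff d f • MvPowerSeries.coeff (Finsupp.single () n)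
        (d.prod fun i e => (C.vars i) ^ e)
      = if d ∈ deg3 n then algebraMap k K (MvPowerSeries.coeff d f) * C.ev d else 0 := by
    intro d
    rw [C.prod_vars d]
    show MvPowerSeries.coeff d f • PowerSeries.coeff n (PowerSeries.monomial (d 0 + d 1 + d 2) (C.ev d)) = _
    rw [PowerSeries.coeff_monomial, Algebra.smul_def]
    by_cases h : n = d 0 + d 1 + d 2
    · rw [if_pos h, if_pos (mem_deg3.2 h.symm)]
    · rw [if_neg h, if_neg (fun h' => h (mem_deg3.1 h').symm), mul_zero]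
  simp only [key]
  rw [finsum_eq_sum_of_support_subset _ (s := deg3 n)]
  · exact Finset.sum_congr rfl fun d hd => if_pos hd
  · intro d hd
    by_contra h
    exact hd (if_neg h)

lemma one_mem_zero : (1 : K) ∈ C.R 0 := by
  rw [C.R_zero]; exact Submodule.mem_span_singleton_self 1

lemma pow_mem_piece {a : K} (ha : a ∈ C.R 1) : ∀ n : ℕ, a ^ n ∈ C.R n
  | 0 => by simpa using C.one_mem_zero
  | n + 1 => by
    rw [pow_succ, Nat.cast_add, Nat.cast_one]
    exact C.mul_mem _ _ _ (pow_mem_piece ha n) _ ha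

lemma ev_mem {n : ℕ} {s : Fin 3 →₀ ℕ} (hs : s ∈ deg3 n) : C.ev s ∈ C.R n := by
  have h := C.mul_mem _ _ _ (C.pow_mem_piece C.one_mem (s 0)) _
    (C.mul_mem _ _ _ (C.pow_mem_piece C.η_mem (s 1)) _ (C.pow_mem_piece C.ζ_mem (s 2)))
  rw [one_pow, one_mul, ← add_assoc, ← Nat.cast_add, ← Nat.cast_add, mem_deg3.1 hs] at h
  exact h

lemma subst_vars_mem (f : MvPowerSeries (Fin 3) k) :
    (MvPowerSeries.subst C.vars f : PowerSeries K) ∈ C.Hat := by
  intro n
  rw [C.coeff_subst_vars]
  refine sum_mem fun s hs => ?_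
  rw [← Algebra.smul_def]
  exact Submodule.smul_mem _ _ (C.ev_mem hs)

/-- The map from the power series ring in `x, y, z`. -/
noncomputable def φ : MvPowerSeries (Fin 3) k →+* C.Hat :=
  RingHom.codRestrict (MvPowerSeries.substAlgHom (R := k) C.hasSubst_vars).toRingHom C.Hat
    fun f => by
      show MvPowerSeries.substAlgHom (R := k) C.hasSubst_vars f ∈ C.Hat
      rw [MvPowerSeries.substAlgHom_apply]
      exact C.subst_vars_mem f

lemma coeff_φ (f : MvPowerSeries (Fin 3) k) (n : ℕ) :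
    PowerSeries.coeff n (C.φ f : PowerSeries K)
      = ∑ s ∈ deg3 n, algebraMap k K (MvPowerSeries.coeff s f) * C.ev s := by
  rw [← C.coeff_subst_vars f n]
  congr 1
  exact congrFun (MvPowerSeries.coe_substAlgHom (R := k) C.hasSubst_vars) f

noncomputable instance instAlgebraHat : Algebra (MvPowerSeries (Fin 3) k) C.Hat := C.φ.toAlgebra

lemma algebraMap_hat : algebraMap (MvPowerSeries (Fin 3) k) C.Hat = C.φ := rfl

lemma φ_X (i : Fin 3) : (C.φ (MvPowerSeries.X i) : PowerSeries K) = C.vars i :=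
  MvPowerSeries.substAlgHom_X (R := k) C.hasSubst_vars i

lemma coeff_φ_C (c : k) (n : ℕ) :
    PowerSeries.coeff n (C.φ (MvPowerSeries.C c) : PowerSeries K)
      = if n = 0 then algebraMap k K c else 0 := by
  classical
  rw [C.coeff_φ]
  simp only [MvPowerSeries.coeff_C]
  by_cases hn : n = 0
  · subst hn
    rw [Finset.sum_eq_single (0 : Fin 3 →₀ ℕ)]
    · simp [ev]
    · intro s hs hs0; simp [hs0]
    · intro h; exact absurd (mem_deg3.2 (by simp)) h
  · rw [if_neg hn]
    refine Finset.sum_eq_zero fun s hs => ?_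
    rw [if_neg, map_zero, zero_mul]
    rintro rfl
    exact hn (by simpa using (mem_deg3.1 hs).symm)

lemma φ_injective : Function.Injective C.φ := by
  classical
  rw [injective_iff_map_eq_zero]
  intro f hf
  ext s₀
  set n := s₀ 0 + s₀ 1 + s₀ 2 with hn
  have h0 : ∑ s ∈ deg3 n, algebraMap k K (MvPowerSeries.coeff s f) * C.ev s = 0 := by
    rw [← C.coeff_φ, hf]; simp
  let e : (Fin 3 →₀ ℕ) → (Fin 2 →₀ ℕ) := fun s => Finsupp.equivFunOnFinite.symm ![s 1, s 2]
  let P : MvPolynomial (Fin 2) k :=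
    ∑ s ∈ deg3 n, MvPolynomial.monomial (e s) (MvPowerSeries.coeff s f)
  have hP : MvPolynomial.aeval ![C.η, C.ζ] P = 0 := by
    rw [← h0]
    simp only [P, map_sum, MvPolynomial.aeval_monomial]
    refine Finset.sum_congr rfl fun s _ => ?_
    rw [Finsupp.prod_fintype _ _ (fun i => pow_zero _), Fin.prod_univ_two]
    simp [e, ev]
  have hP0 : P = 0 := C.indep (by rw [hP, map_zero])
  have h1 := congrArg (MvPolynomial.coeff (e s₀)) hP0
  simp only [P, MvPolynomial.coeff_sum, MvPolynomial.coeff_monomial, MvPolynomial.coeff_zero] at h1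
  rw [Finset.sum_eq_single s₀] at h1
  · simpa using h1
  · intro s hs hne
    rw [if_neg]
    intro he
    apply hne
    have h1' : s 1 = s₀ 1 := by simpa [e] using DFunLike.congr_fun he 0
    have h2' : s 2 = s₀ 2 := by simpa [e] using DFunLike.congr_fun he 1
    have h3 := mem_deg3.1 hs
    ext i
    fin_cases i <;> simp only [Fin.zero_eta, Fin.mk_one, Fin.reduceFinMk] <;> omega
  · intro h; exact absurd (mem_deg3.2 hn.symm) h

/-- The homogeneous element `a T ^ n`. -/
noncomputable def hom (n : ℕ) (a : C.R (n : ℤ)) : C.Hat :=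
  ⟨PowerSeries.monomial n (a : K), fun m => by
    rw [PowerSeries.coeff_monomial]
    split_ifs with h
    · subst h; exact a.2
    · exact zero_mem _⟩

lemma coeff_mul_monomial' (p : PowerSeries K) (g n : ℕ) (w : K) :
    PowerSeries.coeff n (p * PowerSeries.monomial g w)
      = if g ≤ n then PowerSeries.coeff (n - g) p * w else 0 := by
  rw [PowerSeries.monomial_eq_C_mul_X_pow, ← mul_assoc, PowerSeries.coeff_mul_X_pow']
  split_ifs with h
  · rw [PowerSeries.coeff_mul_C]
  · rfl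

lemma hom_add (n : ℕ) (a b : C.R (n : ℤ)) : C.hom n (a + b) = C.hom n a + C.hom n b :=
  Subtype.ext (by simp [hom])

lemma hom_zero (n : ℕ) : C.hom n 0 = 0 := Subtype.ext (by simp [hom])

lemma hom_smul (n : ℕ) (c : k) (a : C.R (n : ℤ)) :
    C.hom n (c • a) = C.φ (MvPowerSeries.C c) * C.hom n a := by
  refine Subtype.ext ?_
  ext j
  show PowerSeries.coeff j (PowerSeries.monomial n (c • (a : K))) =
    PowerSeries.coeff j ((C.φ (MvPowerSeries.C c) : PowerSeries K) * PowerSeries.monomial n (a : K))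
  rw [coeff_mul_monomial', PowerSeries.coeff_monomial, C.coeff_φ_C]
  split_ifs with h1 h2 h3 h4 <;> first | omega | simp [Algebra.smul_def]

/-! ### Finiteness over `k⟦X, Y, Z⟧` -/

/-- Homogeneous combinations of the elements of degree `g`. -/
noncomputable def comb (t : Finset K) (m : ℕ) : (t → MvPowerSeries (Fin 3) k) →ₗ[k] K :=
  LinearMap.mk
    (AddHom.mk (fun f => ∑ w : t, PowerSeries.coeff m (C.φ (f w) : PowerSeries K) * (w : K))
      (fun f f' => by simp [add_mul, Finset.sum_add_distrib]))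
    (fun c f => by
      simp only [Pi.smul_apply, RingHom.id_apply, Finset.smul_sum]
      refine Finset.sum_congr rfl fun w _ => ?_
      rw [C.coeff_φ, C.coeff_φ, ← smul_mul_assoc, Finset.smul_sum]
      congr 1
      refine Finset.sum_congr rfl fun s _ => ?_
      rw [map_smul, smul_eq_mul, map_mul, Algebra.smul_def, mul_assoc])

lemma comb_apply (t : Finset K) (m : ℕ) (f : t → MvPowerSeries (Fin 3) k) :
    C.comb t m f = ∑ w : t, PowerSeries.coeff m (C.φ (f w) : PowerSeries K) * (w : K) := rfl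

lemma coeff_φ_X_mul (i : Fin 3) (c : K) (hc : C.vars i = PowerSeries.monomial 1 c)
    (f : MvPowerSeries (Fin 3) k) (m : ℕ) :
    PowerSeries.coeff (m + 1) (C.φ (MvPowerSeries.X i * f) : PowerSeries K)
      = c * PowerSeries.coeff m (C.φ f : PowerSeries K) := by
  have h : (C.φ (MvPowerSeries.X i * f) : PowerSeries K)
      = (C.φ f : PowerSeries K) * PowerSeries.monomial 1 c := by
    rw [map_mul, Subring.coe_mul, C.φ_X, hc, mul_comm]
  rw [h, coeff_mul_monomial', if_pos (Nat.le_add_left _ _), Nat.add_sub_cancel, mul_comm]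

lemma piece_le_range_comb (t : Finset K) (ht : Submodule.span k (t : Set K) = C.R (C.g : ℤ)) :
    ∀ m : ℕ, C.R ((C.g + m : ℕ) : ℤ) ≤ LinearMap.range (C.comb t m) := by
  classical
  intro m
  induction m with
  | zero =>
    rw [Nat.add_zero, ← ht, Submodule.span_le]
    intro w hw
    refine ⟨Pi.single ⟨w, hw⟩ 1, ?_⟩
    rw [C.comb_apply, Finset.sum_eq_single (⟨w, hw⟩ : t)]
    · simp
    · intro b _ hb; simp [Pi.single_eq_of_ne hb]
    · simp
  | succ m ih =>
    have step : ∀ i c, C.vars i = PowerSeries.monomial 1 c →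
        (C.R ((C.g + m : ℕ) : ℤ)).map (LinearMap.mulLeft k c) ≤ LinearMap.range (C.comb t (m + 1)) := by
      intro i c hc
      rintro _ ⟨v, hv, rfl⟩
      obtain ⟨f, rfl⟩ := ih hv
      refine ⟨fun w => MvPowerSeries.X i * f w, ?_⟩
      rw [LinearMap.mulLeft_apply, C.comb_apply, C.comb_apply, Finset.mul_sum]
      refine Finset.sum_congr rfl fun w _ => ?_
      rw [C.coeff_φ_X_mul i c hc, mul_assoc]
    have h1 : C.R ((C.g + m : ℕ) : ℤ) ≤ LinearMap.range (C.comb t (m + 1)) := by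
      intro v hv
      exact step 0 1 rfl ⟨v, hv, one_mul v⟩
    have hg := C.gen ((C.g + m : ℕ) : ℤ) (by push_cast; omega)
    rw [show ((C.g + (m + 1) : ℕ) : ℤ) = ((C.g + m : ℕ) : ℤ) + 1 by push_cast; ring, hg]
    exact sup_le (sup_le h1 (step 1 C.η rfl)) (step 2 C.ζ rfl)

lemma exists_series (t : Finset K) (ht : Submodule.span k (t : Set K) = C.R (C.g : ℤ)) (f : C.Hat) :
    ∃ a : t → MvPowerSeries (Fin 3) k, ∀ m : ℕ,
      PowerSeries.coeff (C.g + m) (f : PowerSeries K)
        = ∑ w : t, PowerSeries.coeff m (C.φ (a w) : PowerSeries K) * (w : K) := by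
  choose F hF using fun m : ℕ => C.piece_le_range_comb t ht m (f.2 (C.g + m))
  let a : t → MvPowerSeries (Fin 3) k := fun w s => MvPowerSeries.coeff s (F (s 0 + s 1 + s 2) w)
  refine ⟨a, fun m => ?_⟩
  rw [← hF m, C.comb_apply]
  refine Finset.sum_congr rfl fun w _ => ?_
  rw [C.coeff_φ, C.coeff_φ]
  congr 1
  refine Finset.sum_congr rfl fun s hs => ?_
  congr 2
  show MvPowerSeries.coeff s (F m w) = MvPowerSeries.coeff s (F (s 0 + s 1 + s 2) w)
  rw [mem_deg3.1 hs]

lemma hom_mem_span {n : ℕ} {t : Finset K} (ht : Submodule.span k (t : Set K) = C.R (n : ℤ))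
    (G : Submodule (MvPowerSeries (Fin 3) k) C.Hat)
    (hG : ∀ w (hw : w ∈ C.R (n : ℤ)), w ∈ t → C.hom n ⟨w, hw⟩ ∈ G) (a : C.R (n : ℤ)) :
    C.hom n a ∈ G := by
  let P : Submodule k (C.R (n : ℤ)) :=
    { carrier := {a | C.hom n a ∈ G}
      add_mem' := fun {a b} ha hb => by
        simp only [Set.mem_ofPred_eq, C.hom_add] at *
        exact add_mem ha hb
      zero_mem' := by simp [C.hom_zero]
      smul_mem' := fun c a ha => by
        simp only [Set.mem_ofPred_eq, C.hom_smul] at *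
        exact G.smul_mem _ ha }
  have hle : C.R (n : ℤ) ≤ P.map (C.R (n : ℤ)).subtype := by
    conv_lhs => rw [← ht]
    rw [Submodule.span_le]
    intro w hw
    have hw' : w ∈ C.R (n : ℤ) := ht ▸ Submodule.subset_span hw
    exact ⟨⟨w, hw'⟩, hG w hw' hw, rfl⟩
  obtain ⟨b, hb, hab⟩ := hle a.2
  rwa [Subtype.ext hab] at hb

theorem finite_hat : Module.Finite (MvPowerSeries (Fin 3) k) C.Hat := by
  classical
  choose t ht using fun n : ℕ =>
    (Module.Finite.iff_fg.1 (C.fd (n : ℤ)) : (C.R (n : ℤ)).FG)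
  let gens : Set C.Hat := ⋃ n ∈ Set.Iic C.g,
    {x | ∃ w, ∃ hw : w ∈ C.R (n : ℤ), w ∈ t n ∧ x = C.hom n ⟨w, hw⟩}
  have hfin : gens.Finite := by
    refine (Set.finite_Iic _).biUnion fun n _ => ?_
    refine ((t n).finite_toSet.image fun w =>
      if hw : w ∈ C.R (n : ℤ) then C.hom n ⟨w, hw⟩ else 0).subset ?_
    rintro x ⟨w, hw, hwt, rfl⟩
    exact ⟨w, hwt, dif_pos hw⟩
  refine ⟨⟨hfin.toFinset, ?_⟩⟩
  rw [Set.Finite.coe_toFinset, eq_top_iff]
  intro f _
  have hgen : ∀ n ≤ C.g, ∀ a : C.R (n : ℤ),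
      C.hom n a ∈ Submodule.span (MvPowerSeries (Fin 3) k) gens := fun n hn =>
    C.hom_mem_span (ht n) _ fun w hw hwt =>
      Submodule.subset_span (Set.mem_biUnion hn ⟨w, hw, hwt, rfl⟩)
  have hw : ∀ w : t C.g, (w : K) ∈ C.R (C.g : ℤ) := fun w =>
    ht C.g ▸ Submodule.subset_span w.2
  obtain ⟨a, ha⟩ := C.exists_series (t C.g) (ht C.g) f
  have hf : f = ∑ n : Fin C.g, C.hom n ⟨PowerSeries.coeff (n : ℕ) (f : PowerSeries K), f.2 n⟩
      + ∑ w : t C.g, C.φ (a w) * C.hom C.g ⟨w, hw w⟩ := by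
    refine Subtype.ext ?_
    ext j
    simp only [Subring.coe_add, map_add, AddSubmonoidClass.coe_finsetSum, map_sum, Subring.coe_mul,
      hom, coeff_mul_monomial', PowerSeries.coeff_monomial]
    by_cases hj : j < C.g
    · rw [Finset.sum_eq_single (⟨j, hj⟩ : Fin C.g)]
      · simp [Nat.not_le.2 hj]
      · intro b _ hb
        rw [if_neg]
        exact fun h => hb (Fin.ext h.symm)
      · simp
    · obtain ⟨m, rfl⟩ := Nat.exists_eq_add_of_le (Nat.le_of_not_lt hj)
      rw [Finset.sum_eq_zero (fun b _ => if_neg (fun h => by have := b.2; omega)), zero_add, ha m]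
      simp
  rw [hf]
  refine add_mem (sum_mem fun n _ => hgen _ n.2.le _) (sum_mem fun w _ => ?_)
  exact Submodule.smul_mem _ (a w) (hgen _ le_rfl _)

theorem isNoetherianRing_hat : IsNoetherianRing C.Hat :=
  haveI := C.finite_hat
  IsNoetherianRing.of_finite (MvPowerSeries (Fin 3) k) C.Hat

/-! ### The order filtration -/

/-- The elements of order at least `N`. -/
noncomputable def ord (N : ℕ) : Ideal C.Hat :=
  (Ideal.span {(PowerSeries.X : PowerSeries K) ^ N}).comap C.Hat.subtype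

lemma mem_ord {N : ℕ} {f : C.Hat} :
    f ∈ C.ord N ↔ ∀ n < N, PowerSeries.coeff n (f : PowerSeries K) = 0 := by
  rw [ord, Ideal.mem_comap, Ideal.mem_span_singleton, PowerSeries.X_pow_dvd_iff]
  rfl

lemma ord_mul_le (N M : ℕ) : C.ord N * C.ord M ≤ C.ord (N + M) := by
  rw [Ideal.mul_le]
  intro a ha b hb
  rw [ord, Ideal.mem_comap, Ideal.mem_span_singleton] at ha hb ⊢
  rw [map_mul, pow_add]
  exact mul_dvd_mul ha hb

lemma ord_one_pow_le : ∀ N : ℕ, C.ord 1 ^ N ≤ C.ord N
  | 0 => fun f _ => C.mem_ord.2 fun n hn => absurd hn (Nat.not_lt_zero n)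
  | N + 1 => by
    rw [pow_succ]
    exact (Ideal.mul_mono_left (ord_one_pow_le N)).trans (C.ord_mul_le N 1)

/-- The ideal of the parameters. -/
noncomputable def par : Ideal C.Hat := Ideal.ofList C.params

lemma lin_mem_par :
    C.lin 1 C.one_mem ∈ C.par ∧ C.lin C.η C.η_mem ∈ C.par ∧ C.lin C.ζ C.ζ_mem ∈ C.par := by
  refine ⟨?_, ?_, ?_⟩ <;> exact Ideal.subset_span (by simp [params])

lemma coe_lin (a : K) (ha : a ∈ C.R 1) :
    (C.lin a ha : PowerSeries K) = PowerSeries.monomial 1 a := rfl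

lemma ord_succ_le {n : ℕ} (hn : C.g ≤ n) : C.ord (n + 1) ≤ C.par * C.ord n := by
  intro f hf
  have key : ∀ j : ℕ, ∃ p : K × K × K, p.1 ∈ C.R (j : ℤ) ∧ p.2.1 ∈ C.R (j : ℤ) ∧
      p.2.2 ∈ C.R (j : ℤ) ∧ (j < n → p = 0) ∧
      PowerSeries.coeff (j + 1) (f : PowerSeries K) = p.1 + C.η * p.2.1 + C.ζ * p.2.2 := by
    intro j
    by_cases hj : j < n
    · exact ⟨0, zero_mem _, zero_mem _, zero_mem _, fun _ => rfl, by
        simp [C.mem_ord.1 hf (j + 1) (by omega)]⟩
    · have h : PowerSeries.coeff (j + 1) (f : PowerSeries K) ∈ C.R ((j : ℤ) + 1) := by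
        have := f.2 (j + 1)
        rwa [Nat.cast_add, Nat.cast_one] at this
      rw [C.gen (j : ℤ) (by omega)] at h
      obtain ⟨ab, hab, c', hc', hsum⟩ := Submodule.mem_sup.1 h
      obtain ⟨a, ha, b', hb', hsum'⟩ := Submodule.mem_sup.1 hab
      obtain ⟨b, hb, rfl⟩ := hb'
      obtain ⟨c, hc, rfl⟩ := hc'
      exact ⟨(a, b, c), ha, hb, hc, fun h' => absurd h' hj, by
        rw [← hsum, ← hsum']; rfl⟩
  choose p hp1 hp2 hp3 hp0 hp using key
  have mk : ∀ c : ℕ → K, (∀ j : ℕ, c j ∈ C.R (j : ℤ)) → (∀ j < n, c j = 0) →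
      ∃ F : C.Hat, F ∈ C.ord n ∧ ∀ j : ℕ, PowerSeries.coeff j (F : PowerSeries K) = c j := by
    intro c hc h0
    refine ⟨⟨PowerSeries.mk c, fun j => by simpa using hc j⟩, C.mem_ord.2 fun j hj => ?_, fun j => ?_⟩
    · simpa using h0 j hj
    · simp
  obtain ⟨A, hA, hA'⟩ := mk (fun j => (p j).1) hp1 fun j hj => by simp [hp0 j hj]
  obtain ⟨B, hB, hB'⟩ := mk (fun j => (p j).2.1) hp2 fun j hj => by simp [hp0 j hj]
  obtain ⟨D, hD, hD'⟩ := mk (fun j => (p j).2.2) hp3 fun j hj => by simp [hp0 j hj]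
  have hf' : f = C.lin 1 C.one_mem * A + C.lin C.η C.η_mem * B + C.lin C.ζ C.ζ_mem * D := by
    refine Subtype.ext ?_
    ext j
    simp only [Subring.coe_add, Subring.coe_mul, map_add, coe_lin,
      mul_comm (PowerSeries.monomial 1 _ : PowerSeries K), coeff_mul_monomial']
    rcases j with _ | j
    · simpa using C.mem_ord.1 hf 0 (by omega)
    · simp [hA', hB', hD', hp j, mul_comm]
  rw [hf']
  exact add_mem (add_mem (Ideal.mul_mem_mul C.lin_mem_par.1 hA)
    (Ideal.mul_mem_mul C.lin_mem_par.2.1 hB)) (Ideal.mul_mem_mul C.lin_mem_par.2.2 hD)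

lemma ord_add_le : ∀ N : ℕ, C.ord (C.g + N) ≤ C.par ^ N
  | 0 => by simp
  | N + 1 => (C.ord_succ_le (Nat.le_add_right _ _)).trans
      (by rw [pow_succ']; exact Ideal.mul_mono_right (ord_add_le N))

lemma par_le_ord_one : C.par ≤ C.ord 1 := by
  rw [par, Ideal.ofList, Ideal.span_le]
  intro x hx
  have h0 : ∀ a ha, C.lin a ha ∈ C.ord 1 := fun a ha => C.mem_ord.2 fun n hn => by
    rw [coe_lin, PowerSeries.coeff_monomial, if_neg (by omega)]
  simp only [params, List.mem_cons, List.not_mem_nil, or_false, Set.mem_ofPred_eq] at hx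
  rcases hx with rfl | rfl | rfl <;> exact h0 _ _

/-! ### Local and complete -/

lemma inv_mem {f : C.Hat} (hf : f ∉ C.ord 1) : (f : PowerSeries K)⁻¹ ∈ C.Hat := by
  intro n
  have h0 : PowerSeries.constantCoeff (f : PowerSeries K) ≠ 0 := fun h => hf <| C.mem_ord.2 fun m hm => by
    obtain rfl : m = 0 := by omega
    rwa [PowerSeries.coeff_zero_eq_constantCoeff_apply]
  have hmem := f.2 0
  rw [PowerSeries.coeff_zero_eq_constantCoeff_apply, Nat.cast_zero, C.R_zero,
    Submodule.mem_span_singleton] at hmem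
  obtain ⟨c, hc⟩ := hmem
  have hinv : (PowerSeries.constantCoeff (f : PowerSeries K))⁻¹ = c⁻¹ • (1 : K) := by
    rw [← hc, Algebra.smul_def, Algebra.smul_def, mul_one, mul_one, map_inv₀]
  induction n using Nat.strong_induction_on with
  | _ n ih =>
    rw [PowerSeries.coeff_inv]
    split_ifs with hn
    · subst hn
      rw [hinv, Nat.cast_zero]
      exact Submodule.smul_mem _ _ C.one_mem_zero
    · rw [hinv, neg_mul, smul_mul_assoc, one_mul]
      refine neg_mem (Submodule.smul_mem _ _ (sum_mem fun x hx => ?_))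
      split_ifs with h
      · rw [Finset.HasAntidiagonal.mem_antidiagonal] at hx
        rw [← hx, Nat.cast_add]
        exact C.mul_mem _ _ _ (f.2 x.1) _ (ih x.2 h)
      · exact zero_mem _

lemma isUnit_iff_notMem (f : C.Hat) : IsUnit f ↔ f ∉ C.ord 1 := by
  constructor
  · intro hu hf
    have h1 : (1 : C.Hat) ∈ C.ord 1 := by
      rw [← Ideal.eq_top_iff_one]
      exact Ideal.eq_top_of_isUnit_mem _ hf hu
    simpa using C.mem_ord.1 h1 0 one_pos
  · intro hf
    refine IsUnit.of_mul_eq_one (⟨_, C.inv_mem hf⟩ : C.Hat) (Subtype.ext ?_)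
    refine PowerSeries.mul_inv_cancel _ fun h => hf <| C.mem_ord.2 fun m hm => ?_
    obtain rfl : m = 0 := by omega
    rwa [PowerSeries.coeff_zero_eq_constantCoeff_apply]

theorem isLocalRing_hat : IsLocalRing C.Hat := by
  refine IsLocalRing.of_nonunits_add fun a b ha hb => ?_
  simp only [mem_nonunits_iff, C.isUnit_iff_notMem, not_not] at *
  exact add_mem ha hb

lemma maximalIdeal_eq [IsLocalRing C.Hat] : maximalIdeal C.Hat = C.ord 1 := by
  ext f
  rw [mem_maximalIdeal, mem_nonunits_iff, C.isUnit_iff_notMem, not_not]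

theorem isAdicComplete_hat [IsLocalRing C.Hat] : IsAdicComplete (maximalIdeal C.Hat) C.Hat := by
  have hpow : ∀ N, maximalIdeal C.Hat ^ N ≤ C.ord N := fun N => by
    rw [C.maximalIdeal_eq]; exact C.ord_one_pow_le N
  have hback : ∀ N, C.ord (C.g + N) ≤ maximalIdeal C.Hat ^ N := fun N => by
    rw [C.maximalIdeal_eq]
    exact (C.ord_add_le N).trans (Ideal.pow_right_mono C.par_le_ord_one N)
  have htop : ∀ N, (maximalIdeal C.Hat ^ N • ⊤ : Submodule C.Hat C.Hat) = maximalIdeal C.Hat ^ N :=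
    fun N => by rw [smul_eq_mul, Ideal.mul_top]
  haveI : IsHausdorff (maximalIdeal C.Hat) C.Hat := by
    constructor
    intro x hx
    refine Subtype.ext ?_
    ext n
    have h := hx (n + 1)
    rw [SModEq.zero, htop] at h
    simpa using C.mem_ord.1 (hpow _ h) n (Nat.lt_succ_self n)
  haveI : IsPrecomplete (maximalIdeal C.Hat) C.Hat := by
    constructor
    intro f hf
    refine ⟨⟨PowerSeries.mk fun j => PowerSeries.coeff j (f (j + 1) : PowerSeries K),
      fun j => by simpa using (f (j + 1)).2 j⟩, fun N => ?_⟩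
    rw [SModEq.sub_mem, htop]
    have hsub : ∀ {m n : ℕ}, m ≤ n → f m - f n ∈ maximalIdeal C.Hat ^ m := fun {m n} h => by
      have := hf h
      rwa [SModEq.sub_mem, htop] at this
    have h1 : f N - f (C.g + N) ∈ maximalIdeal C.Hat ^ N := hsub (Nat.le_add_left _ _)
    rw [← sub_add_sub_cancel (f N) (f (C.g + N)) _]
    refine add_mem h1 (hback N (C.mem_ord.2 fun j hj => ?_))
    have h2 := C.mem_ord.1 (hpow _ (hsub (show j + 1 ≤ C.g + N by omega))) j (Nat.lt_succ_self j)
    simp only [AddSubgroupClass.coe_sub, map_sub, sub_eq_zero, PowerSeries.coeff_mk] at h2 ⊢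
    exact h2.symm
  exact ⟨⟩

end Ring3

end Vale.Agent.P190
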